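import Claimed.Agent.R246.KC.Comp
import Claimed.Agent.R246.F1.FinData

/-!
# Row 246, F2 (route Q): from integer lists + kernel checks to `F1.FinData` (helper543)

`Raw` = the integer data.  `F_I = N F` (list `F`, leading coefficient `N ≠ 0`) need not be monic.
Chart 0 data are given by quotients:
`b0 = 3 N F_I^(e-1) q` (so `F b0 = 3 F_I^e q`), `c0 = F_I^m q' - 2 F_I^(e-1) q F_I'` (so `3 c0 + 2 b0 F' = 3 F_I^m q'`),
`u0 = u0_I N^6`.
`Raw.ok` = the conjunction of all Boolean checks (to be proved by `decide +kernel`, possibly piece by piece).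
`Raw.finData : d.Ok → F1.FinData`.
-/

set_option autoImplicit false

namespace Claimed.Agent.R246.KC

open Polynomial F1

def KV.pow (x : KV) : ℕ → KV
  | 0 => KV.one
  | n + 1 => (KV.pow x n).mul x

theorem Rel.pow {B : ℤ} {P : ℂ[X]} {x : KV} (h : Rel B P x) : ∀ n : ℕ, Rel B (P ^ n) (x.pow n)
  | 0 => by simpa [KV.pow] using Rel.one
  | n + 1 => by rw [pow_succ]; exact (Rel.pow h n).mul h

theorem Rel.nat {B : ℤ} (n : ℕ) : Rel B (n : ℂ[X]) (KV.int n) := by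
  have := Rel.int (B := B) (n : ℤ)
  simpa using this

theorem RelS.C {B : ℤ} {m : ℕ} {P : ℂ[X]} {c : KV} (h : Rel B P c) :
    RelS B m (PowerSeries.C P) (tab m fun n => if n = 0 then c else KV.zero) :=
  RelS.of_tab fun n _ => by
    rw [PowerSeries.coeff_C]
    split_ifs
    · exact h
    · exact Rel.zero

/-- composition, with the lists of the powers of `h` supplied from outside (for sharing) -/
def sCompP (m : ℕ) (jet : List KV) (pw : ℕ → List KV) : List KV :=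
  sSum m m fun k => sSmul m (get jet k) (pw k)

theorem RelS.compP {B : ℤ} {m : ℕ} {P : ℂ[X]} {h : PS} {jet : List KV} {pw : ℕ → List KV}
    (hj : ∀ k < m, Rel B (hasseDeriv k P) (get jet k)) (hh : PowerSeries.X ∣ h)
    (hp : ∀ k < m, RelS B m (h ^ k) (pw k)) : RelS B m (aeval (xS + h) P) (sCompP m jet pw) := by
  have key : RelS B m (∑ k ∈ Finset.range m, PowerSeries.C (hasseDeriv k P) * h ^ k)
      (sCompP m jet pw) := RelS.sum m fun k hk => RelS.smul (hj k hk) (hp k hk)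
  intro n hn
  rw [coeff_aeval_add P h hh m n hn]
  exact key n hn

/-- the integer data -/
structure Raw where
  /-- evaluation at `2^K` -/
  K : ℕ
  /-- number of pairing rounds in the evaluation of a list -/
  fu : ℕ
  F : List ℤ
  A : ℕ → List ℤ
  Cc : ℕ → List ℤ
  q : Fin 2 → ℕ → List ℤ
  q' : Fin 2 → ℕ → List ℤ
  aoo : Fin 2 → ℕ → List ℤ
  coo : Fin 2 → ℕ → List ℤ
  /-- `U F + W F' = c` -/
  U : List ℤ
  W : List ℤ
  c : ℤ
  u0 : ℤ

/-- restrict a sequence of lists to `3 ≤ ν ≤ 16` -/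
def cl (f : ℕ → List ℤ) (ν : ℕ) : List ℤ := if 3 ≤ ν ∧ ν ≤ 16 then f ν else []

theorem ofLC_nil : ofLC [] = 0 := by simp [ofLC, ofL]

theorem ofLC_cl_low (f : ℕ → List ℤ) {ν : ℕ} (h : ν < 3) : ofLC (cl f ν) = 0 := by
  rw [cl, if_neg (by omega), ofLC_nil]

theorem ofLC_cl_high (f : ℕ → List ℤ) {ν : ℕ} (h : 16 < ν) : ofLC (cl f ν) = 0 := by
  rw [cl, if_neg (by omega), ofLC_nil]

namespace Raw

variable (d : Raw)

/-! ### the objects -/

/-- the integer polynomial `F_I = N F` -/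
noncomputable def FI : ℂ[X] := ofLC d.F
/-- its leading coefficient -/
def N : ℤ := d.F.getD 27 0
/-- the monic polynomial `F` -/
noncomputable def Fp : ℂ[X] := C ((d.N : ℂ)⁻¹) * d.FI
noncomputable def h : PS := PowerSeries.mk fun r => ofLC (d.A r)
noncomputable def w : PS := PowerSeries.mk fun r => ofLC (d.Cc r)
noncomputable def X' : PS := xS + d.h
noncomputable def V' : PS := PowerSeries.X * d.w
noncomputable def Q (i : Fin 2) (ν : ℕ) : ℂ[X] := ofLC (cl (d.q i) ν)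
noncomputable def Q' (i : Fin 2) (ν : ℕ) : ℂ[X] := ofLC (cl (d.q' i) ν)
/-- `F * b0` -/
noncomputable def a0 (i : Fin 2) (ν : ℕ) : ℂ[X] :=
  d.FI * (C ((3 : ℤ) : ℂ) * (d.FI ^ (ee ν - 1) * d.Q i ν))
noncomputable def b0 (i : Fin 2) (ν : ℕ) : ℂ[X] :=
  C (d.N : ℂ) * (C ((3 : ℤ) : ℂ) * (d.FI ^ (ee ν - 1) * d.Q i ν))
noncomputable def c0 (i : Fin 2) (ν : ℕ) : ℂ[X] :=
  d.FI ^ mm ν * d.Q' i ν - C ((2 : ℤ) : ℂ) * ((d.FI ^ (ee ν - 1) * d.Q i ν) * derivative d.FI)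
noncomputable def aooP (i : Fin 2) (ν : ℕ) : ℂ[X] := ofLC (cl (d.aoo i) ν)
noncomputable def cooP (i : Fin 2) (ν : ℕ) : ℂ[X] := ofLC (cl (d.coo i) ν)

/-! ### their codes -/

def kv (l : List ℤ) : KV := kvP d.fu d.K l
def hS : List KV := tab 17 fun r => d.kv (d.A r)
def dhS : List KV := tab 17 fun r => d.kv (derivL (d.A r))
def vhS : List KV := tab 17 fun r => (KV.int r).mul (d.kv (d.A r))
def wS : List KV := tab 17 fun r => d.kv (d.Cc r)
def dwS : List KV := tab 17 fun r => d.kv (derivL (d.Cc r))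
def vwS : List KV := tab 17 fun r => (KV.int (r + 1 : ℕ)).mul (d.kv (d.Cc r))
def hpw (k : ℕ) : List KV := sPow 17 d.hS k
def FsL : List KV := sCompP 17 (tay d.K 17 d.F) d.hpw
def FdL : List KV := sCompP 17 (tay d.K 17 (derivL d.F)) d.hpw
def qsL (i : Fin 2) (ν : ℕ) : List KV := sCompP (17 - ν) (tay d.K (17 - ν) (cl (d.q i) ν)) d.hpw
def qsL' (i : Fin 2) (ν : ℕ) : List KV := sCompP (17 - ν) (tay d.K (17 - ν) (cl (d.q' i) ν)) d.hpw
/-- `F(X')^(e-1) q(X')` -/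
def rL (i : Fin 2) (ν : ℕ) : List KV := sMul (17 - ν) (sPow 17 d.FsL (ee ν - 1)) (d.qsL i ν)
def aooS (i : Fin 2) : List KV := tab 17 fun ν => d.kv (cl (d.aoo i) ν)
def cooS (i : Fin 2) : List KV := tab 17 fun ν => d.kv (cl (d.coo i) ν)

def termX (i : Fin 2) (ν : ℕ) : List KV :=
  sShift 17 ν (sMul (17 - ν) (sMul (17 - ν) d.FsL (sSmul (17 - ν) (KV.int 3) (d.rL i ν)))
    (sPow 17 d.wS ν))

def glueXL (i : Fin 2) : List KV :=
  sSub 17 (sSum 17 17 (d.termX i))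
    (sAdd 17 (sMul 17 (d.aooS i) (sAdd 17 (sOne 17) d.dhS)) (sMul 17 (d.cooS i) d.vhS))

def termV (i : Fin 2) (ν : ℕ) : List KV :=
  sShift 17 ν (sMul (17 - ν)
    (sSub (17 - ν) (sMul (17 - ν) (sPow 17 d.FsL (mm ν)) (d.qsL' i ν))
      (sSmul (17 - ν) (KV.int 2) (sMul (17 - ν) (d.rL i ν) d.FdL)))
    (sPow 17 d.wS (ν + 1)))

def glueVL (i : Fin 2) : List KV :=
  sSub 17 (sSum 17 17 (d.termV i))
    (sAdd 17 (sMul 17 (d.aooS i) d.dwS) (sMul 17 (d.cooS i) d.vwS))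

def a0K (i : Fin 2) (ν : ℕ) : KV :=
  (d.kv d.F).mul ((KV.int 3).mul (((d.kv d.F).pow (ee ν - 1)).mul (d.kv (cl (d.q i) ν))))
def c0K (i : Fin 2) (ν : ℕ) : KV :=
  (((d.kv d.F).pow (mm ν)).mul (d.kv (cl (d.q' i) ν))).sub
    ((KV.int 2).mul ((((d.kv d.F).pow (ee ν - 1)).mul (d.kv (cl (d.q i) ν))).mul
      (d.kv (derivL d.F))))

def wedgeL : List KV :=
  sSub 10 (sSub 10
    (sMul 10 (tab 10 (d.a0K 0)) (sShift 10 1 (tab 9 (d.c0K 1))))
    (sMul 10 (tab 10 (d.a0K 1)) (sShift 10 1 (tab 9 (d.c0K 0)))))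
    (sShift 10 9 (tab 1 fun n => if n = 0 then (KV.int d.u0).mul ((d.kv d.F).pow 6) else KV.zero))

def sqfK : KV :=
  (((d.kv d.U).mul (d.kv d.F)).add ((d.kv d.W).mul (d.kv (derivL d.F)))).sub (KV.int d.c)

/-! ### the checks -/

def chkF : Bool := decide (d.F.length = 28) && decide (d.F.getD 27 0 ≠ 0)
def chk0 : Bool := decide (d.A 0 = []) && decide (d.Cc 0 = [1])
def chkSqf : Bool := decide (d.sqfK.v = 0) && decide (d.sqfK.b < 2 ^ d.K) && decide (d.c ≠ 0)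
def chkRoo (i : Fin 2) : Bool := (List.range 17).all fun ν =>
  decide ((d.aoo i ν).length ≤ 20 * ν + 3) && decide ((d.coo i ν).length ≤ 20 * ν + 2) &&
    decide ((d.coo i ν).getD (20 * ν + 1) 0 + 20 * (d.aoo i ν).getD (20 * ν + 2) 0 = 0)
def chkX (i : Fin 2) : Bool := isZeroS d.K 17 (d.glueXL i)
def chkV (i : Fin 2) : Bool := isZeroS d.K 17 (d.glueVL i)
def chkW : Bool := isZeroS d.K 10 d.wedgeL && decide (d.u0 ≠ 0)

/-- all checks -/
structure Ok : Prop where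
  hF : d.chkF = true
  h0 : d.chk0 = true
  hSqf : d.chkSqf = true
  hRoo : ∀ i, d.chkRoo i = true
  hX : ∀ i, d.chkX i = true
  hV : ∀ i, d.chkV i = true
  hW : d.chkW = true

end Raw

end Claimed.Agent.R246.KC
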