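import Claimed.Agent.R246.KC.Bridge

/-!
# Row 246, F2 (route Q): soundness of the checks of `KC/Bridge.lean` (helper543)
-/

set_option autoImplicit false

namespace Claimed.Agent.R246.KC

open Polynomial F1

theorem dx_mk (G : ℕ → ℂ[X]) : dx (PowerSeries.mk G) = PowerSeries.mk fun r => derivative (G r) := by
  ext1 n
  rw [coeff_dx, PowerSeries.coeff_mk, PowerSeries.coeff_mk]

theorem X_mul_dV_mk (G : ℕ → ℂ[X]) :
    (PowerSeries.X : PS) * dV (PowerSeries.mk G) = PowerSeries.mk fun r => (r : ℂ[X]) * G r := by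
  ext1 n
  cases n with
  | zero => simp
  | succ n =>
    rw [PowerSeries.coeff_succ_X_mul, coeff_dV, PowerSeries.coeff_mk, PowerSeries.coeff_mk]
    push_cast
    ring

theorem dx_xS : dx xS = 1 := by
  ext1 n
  rw [coeff_dx, PowerSeries.coeff_C, PowerSeries.coeff_one]
  split_ifs <;> simp

theorem dV_xS : dV xS = 0 := by
  ext1 n
  rw [coeff_dV, PowerSeries.coeff_C, if_neg (Nat.succ_ne_zero n), zero_mul, map_zero]

theorem dx_X : dx (PowerSeries.X : PS) = 0 := by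
  ext1 n
  rw [coeff_dx, PowerSeries.coeff_X, map_zero]
  split_ifs <;> simp

theorem dV_X : dV (PowerSeries.X : PS) = 1 := by
  ext1 n
  rw [coeff_dV, PowerSeries.coeff_X, PowerSeries.coeff_one]
  cases n with
  | zero => simp
  | succ n => simp

namespace Raw

variable (d : Raw)

local notation "BB" => ((2 : ℤ) ^ d.K)

theorem rel_kv (l : List ℤ) : Rel BB (ofLC l) (d.kv l) := rel_ofLC _ _ _

theorem relS_h : RelS BB 17 d.h d.hS := RelS.mk fun _ _ => d.rel_kv _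
theorem relS_w : RelS BB 17 d.w d.wS := RelS.mk fun _ _ => d.rel_kv _

theorem relS_dh : RelS BB 17 (dx d.h) d.dhS := by
  rw [h, dx_mk]
  exact RelS.mk fun _ _ => by rw [derivative_ofLC]; exact d.rel_kv _

theorem relS_dw : RelS BB 17 (dx d.w) d.dwS := by
  rw [w, dx_mk]
  exact RelS.mk fun _ _ => by rw [derivative_ofLC]; exact d.rel_kv _

theorem relS_vh : RelS BB 17 (PowerSeries.X * dV d.h) d.vhS := by
  rw [h, X_mul_dV_mk]
  exact RelS.mk fun r _ => (Rel.nat r).mul (d.rel_kv _)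

theorem w_add : d.w + PowerSeries.X * dV d.w
    = PowerSeries.mk fun r => ((r + 1 : ℕ) : ℂ[X]) * ofLC (d.Cc r) := by
  rw [w, X_mul_dV_mk]
  ext1 n
  rw [map_add, PowerSeries.coeff_mk, PowerSeries.coeff_mk, PowerSeries.coeff_mk]
  push_cast
  ring

theorem relS_vw : RelS BB 17 (d.w + PowerSeries.X * dV d.w) d.vwS := by
  rw [w_add]
  exact RelS.mk fun r _ => (Rel.nat (r + 1)).mul (d.rel_kv _)

theorem relS_hpw (k : ℕ) : RelS BB 17 (d.h ^ k) (d.hpw k) := d.relS_h.pow k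

variable {d}

theorem X_dvd_h (h0 : d.chk0 = true) : PowerSeries.X ∣ d.h := by
  rw [chk0, Bool.and_eq_true, decide_eq_true_eq, decide_eq_true_eq] at h0
  rw [PowerSeries.X_dvd_iff, ← PowerSeries.coeff_zero_eq_constantCoeff_apply, h,
    PowerSeries.coeff_mk, h0.1, ofLC_nil]

theorem X_dvd_w (h0 : d.chk0 = true) : PowerSeries.X ∣ d.w - 1 := by
  rw [chk0, Bool.and_eq_true, decide_eq_true_eq, decide_eq_true_eq] at h0
  rw [PowerSeries.X_dvd_iff, ← PowerSeries.coeff_zero_eq_constantCoeff_apply, map_sub, w,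
    PowerSeries.coeff_mk, h0.2]
  simp [ofLC, ofL, cst]

/-- composition of a list polynomial with `X'` -/
theorem relS_comp (h0 : d.chk0 = true) (m : ℕ) (hm : m ≤ 17) (l : List ℤ) :
    RelS BB m (aeval d.X' (ofLC l)) (sCompP m (tay d.K m l) d.hpw) :=
  RelS.compP (fun k hk => rel_hasse d.K m l k hk) (X_dvd_h h0)
    (fun k _ => (d.relS_hpw k).mono hm)

theorem relS_Fs (h0 : d.chk0 = true) : RelS BB 17 (aeval d.X' d.FI) d.FsL :=
  relS_comp h0 17 le_rfl _

theorem relS_Fd (h0 : d.chk0 = true) : RelS BB 17 (aeval d.X' (derivative d.FI)) d.FdL := by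
  rw [FI, derivative_ofLC]
  exact relS_comp h0 17 le_rfl _

theorem relS_r (h0 : d.chk0 = true) (i : Fin 2) (ν : ℕ) :
    RelS BB (17 - ν) (aeval d.X' d.FI ^ (ee ν - 1) * aeval d.X' (d.Q i ν)) (d.rL i ν) :=
  (((relS_Fs h0).pow _).mono (by omega)).mul (relS_comp h0 _ (by omega) _)

theorem aeval_C_int (n : ℤ) : aeval d.X' (C ((n : ℤ) : ℂ)) = PowerSeries.C (C ((n : ℤ) : ℂ)) := by
  rw [aeval_C, PowerSeries.algebraMap_apply, algebraMap_eq]

theorem termX_eq (i : Fin 2) (ν : ℕ) :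
    aeval d.X' (d.a0 i ν) * d.V' ^ ν
      = PowerSeries.X ^ ν * ((aeval d.X' d.FI * (PowerSeries.C (C ((3 : ℤ) : ℂ)) *
        (aeval d.X' d.FI ^ (ee ν - 1) * aeval d.X' (d.Q i ν)))) * d.w ^ ν) := by
  rw [a0, map_mul, map_mul, map_mul, map_pow, aeval_C_int, V', mul_pow]
  ring

theorem relS_termX (h0 : d.chk0 = true) (i : Fin 2) (ν : ℕ) :
    RelS BB 17 (aeval d.X' (d.a0 i ν) * d.V' ^ ν) (d.termX i ν) := by
  rw [termX_eq]
  refine RelS.shift ?_
  refine RelS.mul (RelS.mul ((relS_Fs h0).mono (by omega)) ?_) ((d.relS_w.pow ν).mono (by omega))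
  exact RelS.smul (Rel.int 3) (relS_r h0 i ν)

theorem termV_eq (i : Fin 2) (ν : ℕ) :
    aeval d.X' (d.c0 i ν) * d.V' ^ (ν + 1)
      = PowerSeries.X * (PowerSeries.X ^ ν * ((aeval d.X' d.FI ^ mm ν * aeval d.X' (d.Q' i ν)
        - PowerSeries.C (C ((2 : ℤ) : ℂ)) * ((aeval d.X' d.FI ^ (ee ν - 1) * aeval d.X' (d.Q i ν))
          * aeval d.X' (derivative d.FI))) * d.w ^ (ν + 1))) := by
  rw [c0, map_sub, map_mul, map_mul, map_mul, map_mul, map_pow, map_pow, aeval_C_int, V', mul_pow]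
  ring

theorem relS_termV (h0 : d.chk0 = true) (i : Fin 2) (ν : ℕ) :
    RelS BB 17 (PowerSeries.X ^ ν * ((aeval d.X' d.FI ^ mm ν * aeval d.X' (d.Q' i ν)
        - PowerSeries.C (C ((2 : ℤ) : ℂ)) * ((aeval d.X' d.FI ^ (ee ν - 1) * aeval d.X' (d.Q i ν))
          * aeval d.X' (derivative d.FI))) * d.w ^ (ν + 1))) (d.termV i ν) := by
  refine RelS.shift ?_
  refine RelS.mul (RelS.sub ?_ ?_) ((d.relS_w.pow (ν + 1)).mono (by omega))
  · exact (((relS_Fs h0).pow _).mono (by omega)).mul (relS_comp h0 _ (by omega) _)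
  · exact RelS.smul (Rel.int 2) ((relS_r h0 i ν).mul ((relS_Fd h0).mono (by omega)))

variable (d)

theorem relS_aoo (i : Fin 2) : RelS BB 17 (PowerSeries.mk (d.aooP i)) (d.aooS i) :=
  RelS.mk fun _ _ => d.rel_kv _
theorem relS_coo (i : Fin 2) : RelS BB 17 (PowerSeries.mk (d.cooP i)) (d.cooS i) :=
  RelS.mk fun _ _ => d.rel_kv _

theorem mkD_X' (aa cc : PS) : mkD aa (PowerSeries.X * cc) d.X'
    = aa * (1 + dx d.h) + cc * (PowerSeries.X * dV d.h) := by
  rw [mkD_apply, X', map_add, map_add, dx_xS, dV_xS]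
  ring

theorem mkD_V' (aa cc : PS) : mkD aa (PowerSeries.X * cc) d.V'
    = PowerSeries.X * (aa * dx d.w + cc * (d.w + PowerSeries.X * dV d.w)) := by
  rw [mkD_apply, V', Derivation.leibniz, Derivation.leibniz, dx_X, dV_X]
  simp only [smul_eq_mul]
  ring

variable {d}

theorem glue_x (h0 : d.chk0 = true) (i : Fin 2) (hX : d.chkX i = true) :
    VV ^ 17 ∣ (∑ ν ∈ Finset.range 17, aeval d.X' (d.a0 i ν) * d.V' ^ ν)
      - mkD (PowerSeries.mk (d.aooP i)) (VV * PowerSeries.mk (d.cooP i)) d.X' := by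
  rw [mkD_X']
  refine RelS.dvd_of_isZeroS (K := d.K) (l := d.glueXL i) ?_ hX
  refine RelS.sub (RelS.sum 17 fun ν _ => relS_termX h0 i ν) (RelS.add ?_ ?_)
  · exact (d.relS_aoo i).mul (RelS.one.add d.relS_dh)
  · exact (d.relS_coo i).mul d.relS_vh

theorem glue_V (h0 : d.chk0 = true) (i : Fin 2) (hV : d.chkV i = true) :
    VV ^ 18 ∣ (∑ ν ∈ Finset.range 17, aeval d.X' (d.c0 i ν) * d.V' ^ (ν + 1))
      - mkD (PowerSeries.mk (d.aooP i)) (VV * PowerSeries.mk (d.cooP i)) d.V' := by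
  rw [mkD_V']
  simp only [termV_eq]
  rw [← Finset.mul_sum, ← mul_sub, pow_succ' VV 17]
  refine mul_dvd_mul_left _ ?_
  refine RelS.dvd_of_isZeroS (K := d.K) (l := d.glueVL i) ?_ hV
  refine RelS.sub (RelS.sum 17 fun ν _ => relS_termV h0 i ν) (RelS.add ?_ ?_)
  · exact (d.relS_aoo i).mul d.relS_dw
  · exact (d.relS_coo i).mul d.relS_vw

end Raw

end Claimed.Agent.R246.KC
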