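import Claimed.Agent.R246.KC.Data

/-!
# Row 246, F2 (route Q): kernel-check engine, part 4: composition `P(x + h)` by Taylor's formula (helper543)
-/

set_option autoImplicit false

namespace Claimed.Agent.R246.KC

open Polynomial

/-- the element `x` of `PS` -/
noncomputable abbrev xS : PS := PowerSeries.C (Polynomial.X : ℂ[X])

theorem aeval_xS (Q : ℂ[X]) : aeval xS Q = PowerSeries.C Q := by
  induction Q using Polynomial.induction_on' with
  | add p q hp hq => rw [map_add, map_add, hp, hq]
  | monomial n a =>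
    rw [aeval_monomial, PowerSeries.algebraMap_apply, ← map_pow, ← map_mul, algebraMap_eq,
      C_mul_X_pow_eq_monomial]

theorem map_hasse (k : ℕ) (P : ℂ[X]) :
    hasseDeriv k (P.map (algebraMap ℂ PS)) = (hasseDeriv k P).map (algebraMap ℂ PS) := by
  refine Polynomial.ext fun i => ?_
  rw [hasseDeriv_coeff, coeff_map, coeff_map, hasseDeriv_coeff, map_mul, map_natCast]

theorem aeval_add_eq (P : ℂ[X]) (h : PS) (N : ℕ) (hN : P.natDegree < N) :
    aeval (xS + h) P = ∑ k ∈ Finset.range N, PowerSeries.C (hasseDeriv k P) * h ^ k := by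
  have h1 : aeval (xS + h) P = (taylor xS (P.map (algebraMap ℂ PS))).eval h := by
    rw [taylor_eval, eval_map_algebraMap, add_comm]
  rw [h1, eval_eq_sum_range' (n := N)]
  · refine Finset.sum_congr rfl fun k _ => ?_
    rw [taylor_coeff, map_hasse, eval_map_algebraMap, aeval_xS]
  · rw [natDegree_taylor]
    exact lt_of_le_of_lt natDegree_map_le hN

theorem coeff_aeval_add (P : ℂ[X]) (h : PS) (hh : PowerSeries.X ∣ h) (m n : ℕ) (hn : n < m) :
    PowerSeries.coeff n (aeval (xS + h) P)
      = PowerSeries.coeff n (∑ k ∈ Finset.range m, PowerSeries.C (hasseDeriv k P) * h ^ k) := by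
  rw [aeval_add_eq P h (m + (P.natDegree + 1)) (by omega), Finset.sum_range_add, map_add,
    add_eq_left, map_sum]
  refine Finset.sum_eq_zero fun k _ => ?_
  have : PowerSeries.X ^ (m + k) ∣ PowerSeries.C (hasseDeriv (m + k) P) * h ^ (m + k) :=
    Dvd.dvd.mul_left (pow_dvd_pow_of_dvd hh _) _
  exact PowerSeries.X_pow_dvd_iff.mp this n (by omega)

/-- the list representing `P(x + h)`, from the jets of `P` and the list of `h` -/
def sComp (m : ℕ) (jet hS : List KV) : List KV :=
  sSum m m fun k => sSmul m (get jet k) (sPow m hS k)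

theorem RelS.comp {B : ℤ} {m : ℕ} {P : ℂ[X]} {h : PS} {jet hS : List KV}
    (hj : ∀ k < m, Rel B (hasseDeriv k P) (get jet k)) (hh : PowerSeries.X ∣ h)
    (hS' : RelS B m h hS) : RelS B m (aeval (xS + h) P) (sComp m jet hS) := by
  have key : RelS B m (∑ k ∈ Finset.range m, PowerSeries.C (hasseDeriv k P) * h ^ k)
      (sComp m jet hS) := RelS.sum m fun k hk => RelS.smul (hj k hk) (hS'.pow k)
  intro n hn
  rw [coeff_aeval_add P h hh m n hn]
  exact key n hn

end Claimed.Agent.R246.KC
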