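import Claimed.Agent.R246.KC.Ser

/-!
# Row 246, F2 (route Q): kernel-check engine, part 3: polynomials given by coefficient lists (helper543)
-/

set_option autoImplicit false

namespace Claimed.Agent.R246.KC

open Polynomial

/-- the polynomial with coefficient list `l` (constant term first) -/
noncomputable def ofL {R : Type} [Semiring R] : List R → R[X]
  | [] => 0
  | a :: l => C a + X * ofL l

theorem coeff_ofL {R : Type} [Semiring R] : ∀ (l : List R) (i : ℕ), (ofL l).coeff i = l.getD i 0
  | [], i => by simp [ofL]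
  | a :: l, 0 => by simp [ofL]
  | a :: l, i + 1 => by simp [ofL, coeff_ofL l i, coeff_C_succ]

theorem natDegree_ofL_lt {R : Type} [Semiring R] (l : List R) (n : ℕ) (h : l.length ≤ n + 1) :
    (ofL l).natDegree ≤ n := by
  rw [natDegree_le_iff_coeff_eq_zero]
  intro i hi
  rw [coeff_ofL, List.getD_eq_default _ _ (by omega)]

/-- the complex polynomial with integer coefficient list `l` -/
noncomputable def ofLC (l : List ℤ) : ℂ[X] := cst (ofL l)

theorem coeff_ofLC (l : List ℤ) (i : ℕ) : (ofLC l).coeff i = ((l.getD i 0 : ℤ) : ℂ) := by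
  rw [ofLC, cst_coeff, coeff_ofL]

theorem natDegree_ofLC_le (l : List ℤ) (n : ℕ) (h : l.length ≤ n + 1) : (ofLC l).natDegree ≤ n :=
  (cst_natDegree_le _).trans (natDegree_ofL_lt l n h)

theorem maj_ofL (l : List ℤ) : Maj (ofL l) (ofL (l.map Int.natAbs)) := by
  intro i
  rw [coeff_ofL, coeff_ofL]
  by_cases h : i < l.length
  · simp [List.getD_eq_getElem?_getD, h]
  · rw [List.getD_eq_default _ _ (by omega), List.getD_eq_default _ _ (by simp; omega)]
    simp

/-- multiplication by `2^K` -/
def shl (K : ℕ) : ℤ → ℤ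
  | .ofNat n => .ofNat (n <<< K)
  | .negSucc n => -(.ofNat ((n + 1) <<< K))

theorem shl_eq (K : ℕ) (z : ℤ) : shl K z = 2 ^ K * z := by
  cases z with
  | ofNat n =>
    simp only [shl, Nat.shiftLeft_eq, Int.ofNat_eq_natCast]
    push_cast; ring
  | negSucc n =>
    simp only [shl, Nat.shiftLeft_eq, Int.ofNat_eq_natCast, Int.negSucc_eq]
    push_cast; ring

def horner (K : ℕ) : List ℤ → ℤ
  | [] => 0
  | a :: l => a + shl K (horner K l)

theorem horner_eq (K : ℕ) : ∀ l : List ℤ, horner K l = (ofL l).eval (2 ^ K)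
  | [] => by simp [horner, ofL]
  | a :: l => by simp [horner, ofL, shl_eq, horner_eq K l]

def pairUp (K : ℕ) : List ℤ → List ℤ
  | [] => []
  | [a] => [a]
  | a :: b :: l => (a + shl K b) :: pairUp K l

theorem pairUp_eq (K : ℕ) : ∀ l : List ℤ,
    (ofL (pairUp K l)).eval (2 ^ (2 * K)) = (ofL l).eval (2 ^ K)
  | [] => by simp [pairUp, ofL]
  | [a] => by simp [pairUp, ofL]
  | a :: b :: l => by
    simp only [pairUp, ofL, shl_eq, eval_add, eval_mul, eval_C, eval_X, pairUp_eq K l]
    ring

/-- value at `2^K`, by `f` rounds of pairing followed by Horner -/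
def evP : ℕ → ℕ → List ℤ → ℤ
  | 0, K, l => horner K l
  | f + 1, K, l => evP f (2 * K) (pairUp K l)

theorem evP_eq : ∀ (f K : ℕ) (l : List ℤ), evP f K l = (ofL l).eval (2 ^ K)
  | 0, K, l => horner_eq K l
  | f + 1, K, l => by rw [evP, evP_eq f, pairUp_eq]

def nrmL : List ℤ → ℕ
  | [] => 0
  | a :: l => a.natAbs + nrmL l

theorem nrmL_eq : ∀ l : List ℤ, (ofL (l.map Int.natAbs)).eval 1 = nrmL l
  | [] => by simp [nrmL, ofL]
  | a :: l => by simp [nrmL, ofL, nrmL_eq l]

/-- the pair representing `ofLC l` -/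
def kvP (f K : ℕ) (l : List ℤ) : KV := ⟨evP f K l, nrmL l⟩

theorem rel_ofLC (f K : ℕ) (l : List ℤ) : Rel (2 ^ K) (ofLC l) (kvP f K l) :=
  ⟨ofL l, ofL (l.map Int.natAbs), rfl, (evP_eq f K l).symm, maj_ofL l, (nrmL_eq l).le⟩

/-! ### derivative -/

def derivAux : ℕ → List ℤ → List ℤ
  | _, [] => []
  | k, a :: l => ((k : ℤ) * a) :: derivAux (k + 1) l

def derivL (l : List ℤ) : List ℤ := derivAux 1 l.tail

theorem getD_derivAux : ∀ (l : List ℤ) (k i : ℕ),
    (derivAux k l).getD i 0 = ((k + i : ℕ) : ℤ) * l.getD i 0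
  | [], k, i => by simp [derivAux]
  | a :: l, k, 0 => by simp [derivAux]
  | a :: l, k, i + 1 => by
    simp only [derivAux, List.getD_cons_succ, getD_derivAux l (k + 1) i]
    congr 2; omega

theorem derivative_ofL (l : List ℤ) : derivative (ofL l) = ofL (derivL l) := by
  ext i
  rw [coeff_derivative, coeff_ofL, coeff_ofL, derivL, getD_derivAux]
  cases l with
  | nil => simp
  | cons a l =>
    simp only [List.getD_cons_succ, List.tail_cons]
    push_cast; ring

theorem derivative_ofLC (l : List ℤ) : derivative (ofLC l) = ofLC (derivL l) := by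
  rw [ofLC, ← cst_derivative, derivative_ofL, ofLC]

/-! ### Taylor coefficients (Hasse derivatives) -/

theorem taylor_cons_coeff {R : Type} [CommSemiring R] (r a : R) (P : R[X]) (k : ℕ) :
    (taylor r (C a + X * P)).coeff k
      = (if k = 0 then a else (taylor r P).coeff (k - 1)) + r * (taylor r P).coeff k := by
  rw [map_add, taylor_C, taylor_mul, taylor_X, add_mul, coeff_add, coeff_add, coeff_C_mul]
  cases k with
  | zero => simp
  | succ k => simp [coeff_C_succ]

/-- entry `k < m`: value at `2^K` and norm bound of the `k`-th Hasse derivative of `ofL l` -/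
def tay (K m : ℕ) : List ℤ → List KV
  | [] => sZero m
  | a :: l =>
    tab m fun k =>
      ⟨(if k = 0 then a else (get (tay K m l) (k - 1)).v) + shl K (get (tay K m l) k).v,
       (if k = 0 then a.natAbs else (get (tay K m l) (k - 1)).b) + (get (tay K m l) k).b⟩

theorem tay_spec (K m : ℕ) : ∀ (l : List ℤ) (k : ℕ), k < m →
    (get (tay K m l) k).v = (taylor (2 ^ K) (ofL l)).coeff k ∧
    (get (tay K m l) k).b = (taylor 1 (ofL (l.map Int.natAbs))).coeff k
  | [], k, hk => by
    simp [tay, sZero, get_tab _ hk, ofL, KV.zero]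
  | a :: l, k, hk => by
    have h1 := tay_spec K m l k hk
    rw [tay, get_tab _ hk]
    simp only [List.map_cons, ofL, taylor_cons_coeff, shl_eq, one_mul]
    rcases Nat.eq_zero_or_pos k with rfl | hpos
    · simp [h1.1, h1.2]
    · have h2 := tay_spec K m l (k - 1) (by omega)
      simp [hpos.ne', h1.1, h1.2, h2.1, h2.2]

theorem rel_hasse (K m : ℕ) (l : List ℤ) (k : ℕ) (hk : k < m) :
    Rel (2 ^ K) (hasseDeriv k (ofLC l)) (get (tay K m l) k) := by
  obtain ⟨h1, h2⟩ := tay_spec K m l k hk
  refine ⟨hasseDeriv k (ofL l), hasseDeriv k (ofL (l.map Int.natAbs)), cst_hasse k _, ?_,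
    (maj_ofL l).hasse k, ?_⟩
  · rw [h1, taylor_coeff]
  · rw [h2, taylor_coeff]

end Claimed.Agent.R246.KC
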