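import Claimed.Agent.R246.KC.BridgeP

/-!
# Row 246, F2 (route Q): `Raw.Ok ⟹ F1.FinData` (helper543)
-/

set_option autoImplicit false

namespace Claimed.Agent.R246.KC

open Polynomial F1

namespace Raw

variable {d : Raw}

local notation "BB" => ((2 : ℤ) ^ d.K)

theorem N_ne (hF : d.chkF = true) : (d.N : ℂ) ≠ 0 := by
  rw [chkF, Bool.and_eq_true, decide_eq_true_eq, decide_eq_true_eq] at hF
  exact_mod_cast hF.2

theorem FI_eq (hF : d.chkF = true) : d.FI = C (d.N : ℂ) * d.Fp := by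
  rw [Fp, ← mul_assoc, ← C_mul, mul_inv_cancel₀ (N_ne hF), C_1, one_mul]

theorem Fp_natDegree_le (hF : d.chkF = true) : d.Fp.natDegree ≤ 27 := by
  have h2 := hF
  rw [chkF, Bool.and_eq_true, decide_eq_true_eq, decide_eq_true_eq] at h2
  rw [Fp]
  exact (natDegree_C_mul_le _ _).trans (natDegree_ofLC_le _ _ (by omega))

theorem Fp_coeff (hF : d.chkF = true) : d.Fp.coeff 27 = 1 := by
  rw [Fp, coeff_C_mul, FI, coeff_ofLC]
  exact inv_mul_cancel₀ (N_ne hF)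

theorem Fp_monic (hF : d.chkF = true) : d.Fp.Monic :=
  monic_of_natDegree_le_of_coeff_eq_one 27 (Fp_natDegree_le hF) (Fp_coeff hF)

theorem Fp_natDegree (hF : d.chkF = true) : d.Fp.natDegree = 27 :=
  natDegree_eq_of_le_of_coeff_ne_zero (Fp_natDegree_le hF) (by rw [Fp_coeff hF]; exact one_ne_zero)

theorem dFI_eq (hF : d.chkF = true) : derivative d.FI = C (d.N : ℂ) * derivative d.Fp := by
  rw [FI_eq hF, derivative_C_mul]

theorem Fp_sqf (hF : d.chkF = true) (hS : d.chkSqf = true) : IsCoprime d.Fp (derivative d.Fp) := by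
  rw [chkSqf, Bool.and_eq_true, Bool.and_eq_true, decide_eq_true_eq, decide_eq_true_eq,
    decide_eq_true_eq] at hS
  obtain ⟨⟨h1, h2⟩, h3⟩ := hS
  have hrel : Rel BB (ofLC d.U * d.FI + ofLC d.W * derivative d.FI - C ((d.c : ℤ) : ℂ)) d.sqfK := by
    refine Rel.sub (Rel.add ((d.rel_kv _).mul (d.rel_kv _)) ((d.rel_kv _).mul ?_)) (Rel.int _)
    rw [FI, derivative_ofLC]
    exact d.rel_kv _
  have h0 := hrel.eq_zero h1 (by exact_mod_cast h2)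
  have hc : ((d.c : ℤ) : ℂ) ≠ 0 := by exact_mod_cast h3
  refine ⟨C ((d.c : ℂ)⁻¹ * d.N) * ofLC d.U, C ((d.c : ℂ)⁻¹ * d.N) * ofLC d.W, ?_⟩
  have h4 : ofLC d.U * d.FI + ofLC d.W * derivative d.FI = C ((d.c : ℤ) : ℂ) := sub_eq_zero.mp h0
  rw [dFI_eq hF, FI_eq hF] at h4
  calc C ((d.c : ℂ)⁻¹ * d.N) * ofLC d.U * d.Fp + C ((d.c : ℂ)⁻¹ * d.N) * ofLC d.W * derivative d.Fp
      = C ((d.c : ℂ)⁻¹) * (ofLC d.U * (C (d.N : ℂ) * d.Fp)
          + ofLC d.W * (C (d.N : ℂ) * derivative d.Fp)) := by rw [C_mul]; ring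
    _ = 1 := by rw [h4, ← C_mul, inv_mul_cancel₀ hc, C_1]

theorem roo_aux (i : Fin 2) (hR : d.chkRoo i = true) (ν : ℕ) (hν : ν ≤ 16) :
    (d.aoo i ν).length ≤ 20 * ν + 3 ∧ (d.coo i ν).length ≤ 20 * ν + 2 ∧
      (d.coo i ν).getD (20 * ν + 1) 0 + 20 * (d.aoo i ν).getD (20 * ν + 2) 0 = 0 := by
  rw [chkRoo, List.all_eq_true] at hR
  have := hR ν (List.mem_range.mpr (by omega))
  rw [Bool.and_eq_true, Bool.and_eq_true, decide_eq_true_eq, decide_eq_true_eq,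
    decide_eq_true_eq] at this
  exact ⟨this.1.1, this.1.2, this.2⟩

theorem roo1 (i : Fin 2) (hR : d.chkRoo i = true) (ν : ℕ) (hν : ν ≤ 16) :
    (d.aooP i ν).natDegree ≤ 20 * ν + 2 := by
  rw [aooP, cl]
  split_ifs
  · exact natDegree_ofLC_le _ _ (roo_aux i hR ν hν).1
  · rw [ofLC_nil]; simp

theorem roo2 (i : Fin 2) (hR : d.chkRoo i = true) (ν : ℕ) (hν : ν ≤ 16) :
    (d.cooP i ν).natDegree ≤ 20 * ν + 1 := by
  rw [cooP, cl]
  split_ifs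
  · exact natDegree_ofLC_le _ _ (roo_aux i hR ν hν).2.1
  · rw [ofLC_nil]; simp

theorem roo3 (i : Fin 2) (hR : d.chkRoo i = true) (ν : ℕ) (hν : ν ≤ 16) :
    (d.cooP i ν).coeff (20 * ν + 1) + 20 * (d.aooP i ν).coeff (20 * ν + 2) = 0 := by
  rw [aooP, cooP, cl, cl]
  split_ifs
  · rw [coeff_ofLC, coeff_ofLC]
    exact_mod_cast (roo_aux i hR ν hν).2.2
  · rw [ofLC_nil]; simp

theorem Fp_mul_b0 (hF : d.chkF = true) (i : Fin 2) (ν : ℕ) : d.Fp * d.b0 i ν = d.a0 i ν := by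
  have h := FI_eq hF
  rw [a0, b0]
  calc d.Fp * (C (d.N : ℂ) * (C ((3 : ℤ) : ℂ) * (d.FI ^ (ee ν - 1) * d.Q i ν)))
      = (C (d.N : ℂ) * d.Fp) * (C ((3 : ℤ) : ℂ) * (d.FI ^ (ee ν - 1) * d.Q i ν)) := by ring
    _ = d.FI * (C ((3 : ℤ) : ℂ) * (d.FI ^ (ee ν - 1) * d.Q i ν)) := by rw [← h]

theorem taff1 (hF : d.chkF = true) (i : Fin 2) (ν : ℕ) : d.Fp ^ (ee ν - 1) ∣ d.b0 i ν := by
  refine ⟨C (d.N : ℂ) * (C ((3 : ℤ) : ℂ) * (C (d.N : ℂ) ^ (ee ν - 1) * d.Q i ν)), ?_⟩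
  rw [b0, FI_eq hF, mul_pow]
  ring

theorem taff2 (hF : d.chkF = true) (i : Fin 2) (ν : ℕ) :
    d.Fp ^ mm ν ∣ 3 * d.c0 i ν + 2 * (d.b0 i ν * derivative d.Fp) := by
  refine ⟨3 * (C (d.N : ℂ) ^ mm ν * d.Q' i ν), ?_⟩
  have e3 : (C ((3 : ℤ) : ℂ) : ℂ[X]) = 3 := by
    rw [Int.cast_ofNat]; exact (map_ofNat C 3)
  have e2 : (C ((2 : ℤ) : ℂ) : ℂ[X]) = 2 := by
    rw [Int.cast_ofNat]; exact (map_ofNat C 2)
  have key : d.FI ^ mm ν = d.Fp ^ mm ν * C (d.N : ℂ) ^ mm ν := by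
    rw [FI_eq hF, mul_pow]; ring
  rw [c0, b0, e3, e2, dFI_eq hF, key]
  ring

variable (d)

theorem rel_a0 (i : Fin 2) (ν : ℕ) : Rel BB (d.a0 i ν) (d.a0K i ν) :=
  (d.rel_kv _).mul ((Rel.int 3).mul (((d.rel_kv _).pow _).mul (d.rel_kv _)))

theorem rel_c0 (i : Fin 2) (ν : ℕ) : Rel BB (d.c0 i ν) (d.c0K i ν) := by
  refine Rel.sub (((d.rel_kv _).pow _).mul (d.rel_kv _))
    ((Rel.int 2).mul ((((d.rel_kv _).pow _).mul (d.rel_kv _)).mul ?_))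
  rw [FI, derivative_ofLC]
  exact d.rel_kv _

variable {d}

theorem wedge' (hW : d.chkW = true) :
    VV ^ 10 ∣ (PowerSeries.mk (d.a0 0)) * (VV * PowerSeries.mk (d.c0 1))
      - (PowerSeries.mk (d.a0 1)) * (VV * PowerSeries.mk (d.c0 0))
      - PowerSeries.C (C ((d.u0 : ℤ) : ℂ) * d.FI ^ 6) * VV ^ 9 := by
  rw [chkW, Bool.and_eq_true] at hW
  refine RelS.dvd_of_isZeroS (K := d.K) (l := d.wedgeL) ?_ hW.1
  have hsh : ∀ j : Fin 2, RelS BB 10 (VV * PowerSeries.mk (d.c0 j)) (sShift 10 1 (tab 9 (d.c0K j))) := by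
    intro j
    have := RelS.shift (B := BB) (m := 10) (k := 1) (f := PowerSeries.mk (d.c0 j))
      (a := tab 9 (d.c0K j)) (RelS.mk fun ν _ => d.rel_c0 j ν)
    rwa [pow_one] at this
  refine RelS.sub (RelS.sub ?_ ?_) ?_
  · exact (RelS.mk fun ν _ => d.rel_a0 0 ν).mul (hsh 1)
  · exact (RelS.mk fun ν _ => d.rel_a0 1 ν).mul (hsh 0)
  · rw [mul_comm]
    exact RelS.shift (RelS.C ((Rel.int _).mul ((d.rel_kv _).pow 6)))

/-- **The bridge**: integer data passing all checks give the finite data of F1. -/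
noncomputable def finData (ok : d.Ok) : FinData where
  F := d.Fp
  X' := d.X'
  V' := d.V'
  b0 := d.b0
  c0 := d.c0
  aoo := d.aooP
  coo := d.cooP
  u0 := ((d.u0 : ℤ) : ℂ) * (d.N : ℂ) ^ 6
  F_monic := Fp_monic ok.hF
  F_deg := Fp_natDegree ok.hF
  F_sqf := Fp_sqf ok.hF ok.hSqf
  hX := by
    have : d.X' - xx = d.h := by rw [X']; ring
    rw [this]
    exact X_dvd_h ok.h0
  hV := by
    have : d.V' - VV = VV * (d.w - 1) := by rw [V']; ring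
    rw [this, pow_two]
    exact mul_dvd_mul_left _ (X_dvd_w ok.h0)
  low := fun i ν h => by
    refine ⟨?_, ?_, ofLC_cl_low _ h, ofLC_cl_low _ h⟩
    · rw [b0, Q, ofLC_cl_low _ h]; simp
    · rw [c0, Q, Q', ofLC_cl_low _ h, ofLC_cl_low _ h]; simp
  high := fun i ν h => by
    refine ⟨?_, ?_, ofLC_cl_high _ h, ofLC_cl_high _ h⟩
    · rw [b0, Q, ofLC_cl_high _ h]; simp
    · rw [c0, Q, Q', ofLC_cl_high _ h, ofLC_cl_high _ h]; simp
  taff1 := fun i ν _ => taff1 ok.hF i ν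
  taff2 := fun i ν _ => taff2 ok.hF i ν
  roo1 := fun i ν h => roo1 i (ok.hRoo i) ν h
  roo2 := fun i ν h => roo2 i (ok.hRoo i) ν h
  roo3 := fun i ν h => roo3 i (ok.hRoo i) ν h
  glue_x := fun i => by
    simp only [Fp_mul_b0 ok.hF]
    exact glue_x ok.h0 i (ok.hX i)
  glue_V := fun i => glue_V ok.h0 i (ok.hV i)
  u0_ne := by
    have := ok.hW
    rw [chkW, Bool.and_eq_true, decide_eq_true_eq] at this
    exact mul_ne_zero (by exact_mod_cast this.2) (pow_ne_zero _ (N_ne ok.hF))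
  wedge := by
    simp only [Fp_mul_b0 ok.hF]
    have e : C (((d.u0 : ℤ) : ℂ) * (d.N : ℂ) ^ 6) * d.Fp ^ 6 = C ((d.u0 : ℤ) : ℂ) * d.FI ^ 6 := by
      rw [FI_eq ok.hF, mul_pow, C_mul, C_pow]; ring
    rw [e]
    exact wedge' ok.hW

theorem exists_DD_of_ok (ok : d.Ok) : Nonempty DD := exists_DD (finData ok)

end Raw

end Claimed.Agent.R246.KC
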