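import Claimed.Agent.R246.KC.R13P

/-!
# Row 246, F2 (route Q): `Raw.Ok13 ⟹ F1.FinData13 ⟹ DD` (helper543's bridge with `17 → 14`, plus the level `3` check)
-/

set_option autoImplicit false

namespace Claimed.Agent.R246.KC

open Polynomial F1

namespace Raw

variable {d : Raw}

local notation "BB" => ((2 : ℤ) ^ d.K)

theorem roo_aux13 (i : Fin 2) (hR : d.chkRoo13 i = true) (ν : ℕ) (hν : ν ≤ 13) :
    (d.aoo i ν).length ≤ 20 * ν + 3 ∧ (d.coo i ν).length ≤ 20 * ν + 2 ∧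
      (d.coo i ν).getD (20 * ν + 1) 0 + 20 * (d.aoo i ν).getD (20 * ν + 2) 0 = 0 := by
  rw [chkRoo13, List.all_eq_true] at hR
  have := hR ν (List.mem_range.mpr (by omega))
  rw [Bool.and_eq_true, Bool.and_eq_true, decide_eq_true_eq, decide_eq_true_eq,
    decide_eq_true_eq] at this
  exact ⟨this.1.1, this.1.2, this.2⟩

theorem roo113 (i : Fin 2) (hR : d.chkRoo13 i = true) (ν : ℕ) (hν : ν ≤ 13) :
    (d.aooP13 i ν).natDegree ≤ 20 * ν + 2 := by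
  rw [aooP13, cl13]
  split_ifs
  · exact natDegree_ofLC_le _ _ (roo_aux13 i hR ν hν).1
  · rw [ofLC_nil]; simp

theorem roo213 (i : Fin 2) (hR : d.chkRoo13 i = true) (ν : ℕ) (hν : ν ≤ 13) :
    (d.cooP13 i ν).natDegree ≤ 20 * ν + 1 := by
  rw [cooP13, cl13]
  split_ifs
  · exact natDegree_ofLC_le _ _ (roo_aux13 i hR ν hν).2.1
  · rw [ofLC_nil]; simp

theorem roo313 (i : Fin 2) (hR : d.chkRoo13 i = true) (ν : ℕ) (hν : ν ≤ 13) :
    (d.cooP13 i ν).coeff (20 * ν + 1) + 20 * (d.aooP13 i ν).coeff (20 * ν + 2) = 0 := by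
  rw [aooP13, cooP13, cl13, cl13]
  split_ifs
  · rw [coeff_ofLC, coeff_ofLC]
    exact_mod_cast (roo_aux13 i hR ν hν).2.2
  · rw [ofLC_nil]; simp

theorem Fp_mul_b013 (hF : d.chkF = true) (i : Fin 2) (ν : ℕ) : d.Fp * d.b013 i ν = d.a013 i ν := by
  have h := FI_eq hF
  rw [a013, b013]
  calc d.Fp * (C (d.N : ℂ) * (C ((3 : ℤ) : ℂ) * (d.FI ^ (ee ν - 1) * d.Q13 i ν)))
      = (C (d.N : ℂ) * d.Fp) * (C ((3 : ℤ) : ℂ) * (d.FI ^ (ee ν - 1) * d.Q13 i ν)) := by ring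
    _ = d.FI * (C ((3 : ℤ) : ℂ) * (d.FI ^ (ee ν - 1) * d.Q13 i ν)) := by rw [← h]

theorem taff113 (hF : d.chkF = true) (i : Fin 2) (ν : ℕ) : d.Fp ^ (ee ν - 1) ∣ d.b013 i ν := by
  refine ⟨C (d.N : ℂ) * (C ((3 : ℤ) : ℂ) * (C (d.N : ℂ) ^ (ee ν - 1) * d.Q13 i ν)), ?_⟩
  rw [b013, FI_eq hF, mul_pow]
  ring

theorem taff213 (hF : d.chkF = true) (i : Fin 2) (ν : ℕ) :
    d.Fp ^ mm ν ∣ 3 * d.c013 i ν + 2 * (d.b013 i ν * derivative d.Fp) := by
  refine ⟨3 * (C (d.N : ℂ) ^ mm ν * d.Q13' i ν), ?_⟩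
  have e3 : (C ((3 : ℤ) : ℂ) : ℂ[X]) = 3 := by
    rw [Int.cast_ofNat]; exact (map_ofNat C 3)
  have e2 : (C ((2 : ℤ) : ℂ) : ℂ[X]) = 2 := by
    rw [Int.cast_ofNat]; exact (map_ofNat C 2)
  have key : d.FI ^ mm ν = d.Fp ^ mm ν * C (d.N : ℂ) ^ mm ν := by
    rw [FI_eq hF, mul_pow]; ring
  rw [c013, b013, e3, e2, dFI_eq hF, key]
  ring

variable (d)

theorem rel_a013 (i : Fin 2) (ν : ℕ) : Rel BB (d.a013 i ν) (d.a0K13 i ν) :=
  (d.rel_kv _).mul ((Rel.int 3).mul (((d.rel_kv _).pow _).mul (d.rel_kv _)))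

theorem rel_c013 (i : Fin 2) (ν : ℕ) : Rel BB (d.c013 i ν) (d.c0K13 i ν) := by
  refine Rel.sub (((d.rel_kv _).pow _).mul (d.rel_kv _))
    ((Rel.int 2).mul ((((d.rel_kv _).pow _).mul (d.rel_kv _)).mul ?_))
  rw [FI, derivative_ofLC]
  exact d.rel_kv _

variable {d}

theorem wedge13' (hW : d.chkW13 = true) :
    VV ^ 10 ∣ (PowerSeries.mk (d.a013 0)) * (VV * PowerSeries.mk (d.c013 1))
      - (PowerSeries.mk (d.a013 1)) * (VV * PowerSeries.mk (d.c013 0))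
      - PowerSeries.C (C ((d.u0 : ℤ) : ℂ) * d.FI ^ 6) * VV ^ 9 := by
  rw [chkW13, Bool.and_eq_true] at hW
  refine RelS.dvd_of_isZeroS (K := d.K) (l := d.wedgeL13) ?_ hW.1
  have hsh : ∀ j : Fin 2, RelS BB 10 (VV * PowerSeries.mk (d.c013 j)) (sShift 10 1 (tab 9 (d.c0K13 j))) := by
    intro j
    have := RelS.shift (B := BB) (m := 10) (k := 1) (f := PowerSeries.mk (d.c013 j))
      (a := tab 9 (d.c0K13 j)) (RelS.mk fun ν _ => d.rel_c013 j ν)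
    rwa [pow_one] at this
  refine RelS.sub (RelS.sub ?_ ?_) ?_
  · exact (RelS.mk fun ν _ => d.rel_a013 0 ν).mul (hsh 1)
  · exact (RelS.mk fun ν _ => d.rel_a013 1 ν).mul (hsh 0)
  · rw [mul_comm]
    exact RelS.shift (RelS.C ((Rel.int _).mul ((d.rel_kv _).pow 6)))

theorem FI_ne (hF : d.chkF = true) : d.FI ≠ 0 := by
  intro h0
  have h1 := Fp_monic hF
  rw [Fp, h0, mul_zero] at h1
  exact h1.ne_zero rfl

theorem lev3_ind13 (hF : d.chkF = true) {j k : ℕ} (h3 : d.chk3 j k = true) :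
    ∀ μ ν : ℂ, C μ * d.c013 0 3 + C ν * d.c013 1 3 = 0 → μ = 0 ∧ ν = 0 := by
  rw [chk3, Bool.and_eq_true, Bool.and_eq_true, decide_eq_true_eq, decide_eq_true_eq,
    decide_eq_true_eq] at h3
  obtain ⟨⟨hq0, hq1⟩, hm⟩ := h3
  have hQ : ∀ i : Fin 2, d.Q13 i 3 = 0 := by
    intro i
    have : d.q i 3 = [] := by
      fin_cases i
      · exact hq0
      · exact hq1
    rw [Q13, cl13, if_pos (by omega), this, ofLC_nil]
  have hc : ∀ i : Fin 2, d.c013 i 3 = d.FI ^ mm 3 * d.Q13' i 3 := by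
    intro i
    rw [c013, hQ i]
    ring
  have hco : ∀ (i : Fin 2) (l : ℕ), (d.Q13' i 3).coeff l = (((d.q' i 3).getD l 0 : ℤ) : ℂ) := by
    intro i l
    rw [Q13', cl13, if_pos (by omega), coeff_ofLC]
  intro μ ν e
  rw [hc 0, hc 1] at e
  have e' : d.FI ^ mm 3 * (C μ * d.Q13' 0 3 + C ν * d.Q13' 1 3) = 0 := by
    rw [← e]; ring
  have e2 := (mul_eq_zero.1 e').resolve_left (pow_ne_zero _ (FI_ne hF))
  refine ext13_ind_of_coeff j k ?_ μ ν e2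
  rw [hco, hco, hco, hco]
  exact_mod_cast hm

/-- **The bridge**: integer data passing all checks give the finite data of F1. -/
noncomputable def finData13 (ok : d.Ok13) : FinData13 where
  F := d.Fp
  X' := d.X'
  V' := d.V'
  b0 := d.b013
  c0 := d.c013
  aoo := d.aooP13
  coo := d.cooP13
  u0 := ((d.u0 : ℤ) : ℂ) * (d.N : ℂ) ^ 6
  F_monic := Fp_monic ok.hF
  F_deg := Fp_natDegree ok.hF
  F_sqf := Fp_sqf ok.hF ok.hSqf
  hX := by
    have : d.X' - xx = d.h := by rw [X']; ring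
    rw [this]
    exact X_dvd_h ok.h0
  hV := by
    have : d.V' - VV = VV * (d.w - 1) := by rw [V']; ring
    rw [this, pow_two]
    exact mul_dvd_mul_left _ (X_dvd_w ok.h0)
  low := fun i ν h => by
    refine ⟨?_, ?_, ofLC_cl_low13 _ h, ofLC_cl_low13 _ h⟩
    · rw [b013, Q13, ofLC_cl_low13 _ h]; simp
    · rw [c013, Q13, Q13', ofLC_cl_low13 _ h, ofLC_cl_low13 _ h]; simp
  high := fun i ν h => by
    refine ⟨?_, ?_, ofLC_cl_high13 _ h, ofLC_cl_high13 _ h⟩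
    · rw [b013, Q13, ofLC_cl_high13 _ h]; simp
    · rw [c013, Q13, Q13', ofLC_cl_high13 _ h, ofLC_cl_high13 _ h]; simp
  lev3_ind := by
    obtain ⟨j, k, h3⟩ := ok.h3
    exact lev3_ind13 ok.hF h3
  taff1 := fun i ν _ => taff113 ok.hF i ν
  taff2 := fun i ν _ => taff213 ok.hF i ν
  roo1 := fun i ν h => roo113 i (ok.hRoo i) ν h
  roo2 := fun i ν h => roo213 i (ok.hRoo i) ν h
  roo3 := fun i ν h => roo313 i (ok.hRoo i) ν h
  glue_x := fun i => by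
    simp only [Fp_mul_b013 ok.hF]
    exact glue_x13 ok.h0 i (ok.hX i)
  glue_V := fun i => glue_V13 ok.h0 i (ok.hV i)
  u0_ne := by
    have := ok.hW
    rw [chkW13, Bool.and_eq_true, decide_eq_true_eq] at this
    exact mul_ne_zero (by exact_mod_cast this.2) (pow_ne_zero _ (N_ne ok.hF))
  wedge := by
    simp only [Fp_mul_b013 ok.hF]
    have e : C (((d.u0 : ℤ) : ℂ) * (d.N : ℂ) ^ 6) * d.Fp ^ 6 = C ((d.u0 : ℤ) : ℂ) * d.FI ^ 6 := by
      rw [FI_eq ok.hF, mul_pow, C_mul, C_pow]; ring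
    rw [e]
    exact wedge13' ok.hW

theorem exists_DD_of_ok13 (ok : d.Ok13) : Nonempty DD := exists_DD13 (finData13 ok)

end Raw

end Claimed.Agent.R246.KC

/-! ### hygiene (rule 6) -/
theorem Claimed.Agent.R246.Hyg.kcR13Final : True := by
  have := @Claimed.Agent.R246.KC.Raw.finData13.eq_1
  have := @Claimed.Agent.R246.KC.Raw.finData13.eq_def
  trivial
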