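import Claimed.Agent.R246.KC.R13Defs

/-!
# Row 246, F2 (route Q): soundness of the checks of `KC/R13Defs.lean` (helper543's proofs with `17 → 14`)
-/

set_option autoImplicit false

namespace Claimed.Agent.R246.KC

open Polynomial F1

namespace Raw

variable (d : Raw)

local notation "BB" => ((2 : ℤ) ^ d.K)

theorem relS_h13 : RelS BB 14 d.h d.hS13 := RelS.mk fun _ _ => d.rel_kv _
theorem relS_w13 : RelS BB 14 d.w d.wS13 := RelS.mk fun _ _ => d.rel_kv _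

theorem relS_dh13 : RelS BB 14 (dx d.h) d.dhS13 := by
  rw [h, dx_mk]
  exact RelS.mk fun _ _ => by rw [derivative_ofLC]; exact d.rel_kv _

theorem relS_dw13 : RelS BB 14 (dx d.w) d.dwS13 := by
  rw [w, dx_mk]
  exact RelS.mk fun _ _ => by rw [derivative_ofLC]; exact d.rel_kv _

theorem relS_vh13 : RelS BB 14 (PowerSeries.X * dV d.h) d.vhS13 := by
  rw [h, X_mul_dV_mk]
  exact RelS.mk fun r _ => (Rel.nat r).mul (d.rel_kv _)

theorem relS_vw13 : RelS BB 14 (d.w + PowerSeries.X * dV d.w) d.vwS13 := by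
  rw [w_add]
  exact RelS.mk fun r _ => (Rel.nat (r + 1)).mul (d.rel_kv _)

theorem relS_hpw13 (k : ℕ) : RelS BB 14 (d.h ^ k) (d.hpw13 k) := d.relS_h13.pow k

variable {d}

/-- composition of a list polynomial with `X'` -/
theorem relS_comp13 (h0 : d.chk0 = true) (m : ℕ) (hm : m ≤ 14) (l : List ℤ) :
    RelS BB m (aeval d.X' (ofLC l)) (sCompP m (tay d.K m l) d.hpw13) :=
  RelS.compP (fun k hk => rel_hasse d.K m l k hk) (X_dvd_h h0)
    (fun k _ => (d.relS_hpw13 k).mono hm)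

theorem relS_Fs13 (h0 : d.chk0 = true) : RelS BB 14 (aeval d.X' d.FI) d.FsL13 :=
  relS_comp13 h0 14 le_rfl _

theorem relS_Fd13 (h0 : d.chk0 = true) : RelS BB 14 (aeval d.X' (derivative d.FI)) d.FdL13 := by
  rw [FI, derivative_ofLC]
  exact relS_comp13 h0 14 le_rfl _

theorem relS_r13 (h0 : d.chk0 = true) (i : Fin 2) (ν : ℕ) :
    RelS BB (14 - ν) (aeval d.X' d.FI ^ (ee ν - 1) * aeval d.X' (d.Q13 i ν)) (d.rL13 i ν) :=
  (((relS_Fs13 h0).pow _).mono (by omega)).mul (relS_comp13 h0 _ (by omega) _)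

theorem termX_eq13 (i : Fin 2) (ν : ℕ) :
    aeval d.X' (d.a013 i ν) * d.V' ^ ν
      = PowerSeries.X ^ ν * ((aeval d.X' d.FI * (PowerSeries.C (C ((3 : ℤ) : ℂ)) *
        (aeval d.X' d.FI ^ (ee ν - 1) * aeval d.X' (d.Q13 i ν)))) * d.w ^ ν) := by
  rw [a013, map_mul, map_mul, map_mul, map_pow, aeval_C_int, V', mul_pow]
  ring

theorem relS_termX13 (h0 : d.chk0 = true) (i : Fin 2) (ν : ℕ) :
    RelS BB 14 (aeval d.X' (d.a013 i ν) * d.V' ^ ν) (d.termX13 i ν) := by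
  rw [termX_eq13]
  refine RelS.shift ?_
  refine RelS.mul (RelS.mul ((relS_Fs13 h0).mono (by omega)) ?_) ((d.relS_w13.pow ν).mono (by omega))
  exact RelS.smul (Rel.int 3) (relS_r13 h0 i ν)

theorem termV_eq13 (i : Fin 2) (ν : ℕ) :
    aeval d.X' (d.c013 i ν) * d.V' ^ (ν + 1)
      = PowerSeries.X * (PowerSeries.X ^ ν * ((aeval d.X' d.FI ^ mm ν * aeval d.X' (d.Q13' i ν)
        - PowerSeries.C (C ((2 : ℤ) : ℂ)) * ((aeval d.X' d.FI ^ (ee ν - 1) * aeval d.X' (d.Q13 i ν))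
          * aeval d.X' (derivative d.FI))) * d.w ^ (ν + 1))) := by
  rw [c013, map_sub, map_mul, map_mul, map_mul, map_mul, map_pow, map_pow, aeval_C_int, V', mul_pow]
  ring

theorem relS_termV13 (h0 : d.chk0 = true) (i : Fin 2) (ν : ℕ) :
    RelS BB 14 (PowerSeries.X ^ ν * ((aeval d.X' d.FI ^ mm ν * aeval d.X' (d.Q13' i ν)
        - PowerSeries.C (C ((2 : ℤ) : ℂ)) * ((aeval d.X' d.FI ^ (ee ν - 1) * aeval d.X' (d.Q13 i ν))
          * aeval d.X' (derivative d.FI))) * d.w ^ (ν + 1))) (d.termV13 i ν) := by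
  refine RelS.shift ?_
  refine RelS.mul (RelS.sub ?_ ?_) ((d.relS_w13.pow (ν + 1)).mono (by omega))
  · exact (((relS_Fs13 h0).pow _).mono (by omega)).mul (relS_comp13 h0 _ (by omega) _)
  · exact RelS.smul (Rel.int 2) ((relS_r13 h0 i ν).mul ((relS_Fd13 h0).mono (by omega)))

variable (d)

theorem relS_aoo13 (i : Fin 2) : RelS BB 14 (PowerSeries.mk (d.aooP13 i)) (d.aooS13 i) :=
  RelS.mk fun _ _ => d.rel_kv _
theorem relS_coo13 (i : Fin 2) : RelS BB 14 (PowerSeries.mk (d.cooP13 i)) (d.cooS13 i) :=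
  RelS.mk fun _ _ => d.rel_kv _

variable {d}

theorem glue_x13 (h0 : d.chk0 = true) (i : Fin 2) (hX : d.chkX13 i = true) :
    VV ^ 14 ∣ (∑ ν ∈ Finset.range 14, aeval d.X' (d.a013 i ν) * d.V' ^ ν)
      - mkD (PowerSeries.mk (d.aooP13 i)) (VV * PowerSeries.mk (d.cooP13 i)) d.X' := by
  rw [mkD_X']
  refine RelS.dvd_of_isZeroS (K := d.K) (l := d.glueXL13 i) ?_ hX
  refine RelS.sub (RelS.sum 14 fun ν _ => relS_termX13 h0 i ν) (RelS.add ?_ ?_)
  · exact (d.relS_aoo13 i).mul (RelS.one.add d.relS_dh13)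
  · exact (d.relS_coo13 i).mul d.relS_vh13

theorem glue_V13 (h0 : d.chk0 = true) (i : Fin 2) (hV : d.chkV13 i = true) :
    VV ^ 15 ∣ (∑ ν ∈ Finset.range 14, aeval d.X' (d.c013 i ν) * d.V' ^ (ν + 1))
      - mkD (PowerSeries.mk (d.aooP13 i)) (VV * PowerSeries.mk (d.cooP13 i)) d.V' := by
  rw [mkD_V']
  simp only [termV_eq13]
  rw [← Finset.mul_sum, ← mul_sub, pow_succ' VV 14]
  refine mul_dvd_mul_left _ ?_
  refine RelS.dvd_of_isZeroS (K := d.K) (l := d.glueVL13 i) ?_ hV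
  refine RelS.sub (RelS.sum 14 fun ν _ => relS_termV13 h0 i ν) (RelS.add ?_ ?_)
  · exact (d.relS_aoo13 i).mul d.relS_dw13
  · exact (d.relS_coo13 i).mul d.relS_vw13

end Raw

end Claimed.Agent.R246.KC
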