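import Mathlib

/-!
# Row 246, F2 (route Q): kernel-check engine, part 1 (helper543)

Kronecker evaluation with a majorant bound.  A polynomial `P : ℂ[X]` with integer coefficients is
represented by a pair `x : KV`: `x.v` = value at `B` of the integer model, `x.b` = an upper bound for the
sum of the absolute values of its coefficients.  The relation `Rel B P x` is stable under `+, -, *`, and
`x.v = 0`, `x.b < B` force `P = 0`.  So polynomial identities between explicit integer polynomials are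
checked by a few multiplications of big integers (GMP in the kernel).
-/

set_option autoImplicit false

namespace Claimed.Agent.R246.KC

open Polynomial

/-- value at `B`, bound for the `ℓ¹` norm -/
structure KV where
  v : ℤ
  b : ℕ

namespace KV
def add (x y : KV) : KV := ⟨x.v + y.v, x.b + y.b⟩
def sub (x y : KV) : KV := ⟨x.v - y.v, x.b + y.b⟩
def mul (x y : KV) : KV := ⟨x.v * y.v, x.b * y.b⟩
def zero : KV := ⟨0, 0⟩
def one : KV := ⟨1, 1⟩
def int (n : ℤ) : KV := ⟨n, n.natAbs⟩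
end KV

/-- coefficientwise domination -/
def Maj (P : ℤ[X]) (M : ℕ[X]) : Prop := ∀ i, (P.coeff i).natAbs ≤ M.coeff i

theorem Maj.add {P Q : ℤ[X]} {M N : ℕ[X]} (h : Maj P M) (h' : Maj Q N) : Maj (P + Q) (M + N) := by
  intro i
  rw [coeff_add, coeff_add]
  exact (Int.natAbs_add_le _ _).trans (Nat.add_le_add (h i) (h' i))

theorem Maj.neg {P : ℤ[X]} {M : ℕ[X]} (h : Maj P M) : Maj (-P) M := by
  intro i
  rw [coeff_neg, Int.natAbs_neg]
  exact h i

theorem Maj.sub {P Q : ℤ[X]} {M N : ℕ[X]} (h : Maj P M) (h' : Maj Q N) : Maj (P - Q) (M + N) := by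
  rw [sub_eq_add_neg]
  exact h.add h'.neg

theorem Maj.mul {P Q : ℤ[X]} {M N : ℕ[X]} (h : Maj P M) (h' : Maj Q N) : Maj (P * Q) (M * N) := by
  intro i
  rw [coeff_mul, coeff_mul]
  refine (Int.natAbs_sum_le _ _).trans (Finset.sum_le_sum fun p _ => ?_)
  rw [Int.natAbs_mul]
  exact Nat.mul_le_mul (h p.1) (h' p.2)

theorem Maj.C (n : ℤ) : Maj (Polynomial.C n) (Polynomial.C n.natAbs) := by
  intro i
  rw [coeff_C, coeff_C]
  split_ifs <;> simp

theorem Maj.hasse {P : ℤ[X]} {M : ℕ[X]} (h : Maj P M) (k : ℕ) :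
    Maj (hasseDeriv k P) (hasseDeriv k M) := by
  intro i
  rw [hasseDeriv_coeff, hasseDeriv_coeff, Int.natAbs_mul]
  simp only [Int.natAbs_natCast, Nat.cast_id]
  exact Nat.mul_le_mul le_rfl (h _)

theorem coeff_le_eval_one (M : ℕ[X]) (i : ℕ) : M.coeff i ≤ M.eval 1 := by
  rw [eval_eq_sum_range]
  simp only [one_pow, mul_one]
  by_cases hi : i ∈ Finset.range (M.natDegree + 1)
  · exact Finset.single_le_sum (f := fun i => M.coeff i) (fun _ _ => Nat.zero_le _) hi
  · rw [Finset.mem_range, not_lt] at hi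
    rw [coeff_eq_zero_of_natDegree_lt (by omega)]
    exact Nat.zero_le _

/-- the coercion `ℤ[X] → ℂ[X]` -/
noncomputable def cst : ℤ[X] →+* ℂ[X] := Polynomial.mapRingHom (Int.castRingHom ℂ)

theorem cst_coeff (P : ℤ[X]) (i : ℕ) : (cst P).coeff i = ((P.coeff i : ℤ) : ℂ) := by
  simp [cst]

theorem cst_C (n : ℤ) : cst (Polynomial.C n) = Polynomial.C (n : ℂ) := by
  simp [cst]

theorem cst_X : cst Polynomial.X = Polynomial.X := by
  simp [cst]

theorem cst_hasse (k : ℕ) (P : ℤ[X]) : cst (hasseDeriv k P) = hasseDeriv k (cst P) := by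
  ext i
  rw [cst_coeff, hasseDeriv_coeff, hasseDeriv_coeff, cst_coeff]
  push_cast
  rfl

theorem cst_derivative (P : ℤ[X]) : cst (derivative P) = derivative (cst P) := by
  simp [cst, derivative_map]

theorem cst_natDegree_le (P : ℤ[X]) : (cst P).natDegree ≤ P.natDegree := by
  simpa [cst] using natDegree_map_le (f := Int.castRingHom ℂ) (p := P)

/-- `P` has an integer model with value `x.v` at `B` and `ℓ¹` norm at most `x.b`. -/
def Rel (B : ℤ) (P : ℂ[X]) (x : KV) : Prop :=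
  ∃ (P₀ : ℤ[X]) (M : ℕ[X]), cst P₀ = P ∧ P₀.eval B = x.v ∧ Maj P₀ M ∧ M.eval 1 ≤ x.b

namespace Rel

variable {B : ℤ} {P Q : ℂ[X]} {x y : KV}

theorem add (h : Rel B P x) (h' : Rel B Q y) : Rel B (P + Q) (x.add y) := by
  obtain ⟨P₀, M, rfl, h2, h3, h4⟩ := h
  obtain ⟨Q₀, N, rfl, k2, k3, k4⟩ := h'
  exact ⟨P₀ + Q₀, M + N, map_add _ _ _, by simp [KV.add, h2, k2], h3.add k3, by
    simpa [KV.add] using Nat.add_le_add h4 k4⟩

theorem sub (h : Rel B P x) (h' : Rel B Q y) : Rel B (P - Q) (x.sub y) := by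
  obtain ⟨P₀, M, rfl, h2, h3, h4⟩ := h
  obtain ⟨Q₀, N, rfl, k2, k3, k4⟩ := h'
  exact ⟨P₀ - Q₀, M + N, map_sub _ _ _, by simp [KV.sub, h2, k2], h3.sub k3, by
    simpa [KV.sub] using Nat.add_le_add h4 k4⟩

theorem mul (h : Rel B P x) (h' : Rel B Q y) : Rel B (P * Q) (x.mul y) := by
  obtain ⟨P₀, M, rfl, h2, h3, h4⟩ := h
  obtain ⟨Q₀, N, rfl, k2, k3, k4⟩ := h'
  exact ⟨P₀ * Q₀, M * N, map_mul _ _ _, by simp [KV.mul, h2, k2], h3.mul k3, by
    simpa [KV.mul] using Nat.mul_le_mul h4 k4⟩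

theorem int (n : ℤ) : Rel B (Polynomial.C (n : ℂ)) (KV.int n) :=
  ⟨Polynomial.C n, Polynomial.C n.natAbs, cst_C n, by simp [KV.int], Maj.C n, by simp [KV.int]⟩

theorem zero : Rel B 0 KV.zero := by
  simpa [KV.int, KV.zero] using (int (B := B) 0)

theorem one : Rel B 1 KV.one := by
  simpa [KV.int, KV.one] using (int (B := B) 1)

theorem congr {P' : ℂ[X]} (h : Rel B P x) (e : P = P') : Rel B P' x := e ▸ h

end Rel

theorem eq_zero_aux {B : ℤ} (hB : 0 < B) : ∀ (n : ℕ) (P : ℤ[X]), P.natDegree ≤ n →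
    (∀ i, ((P.coeff i).natAbs : ℤ) < B) → P.eval B = 0 → P = 0 := by
  intro n
  induction n with
  | zero =>
    intro P hP _ h0
    rw [eq_C_of_natDegree_le_zero hP] at h0 ⊢
    rw [eval_C] at h0
    rw [h0, map_zero]
  | succ n ih =>
    intro P hP hc h0
    have hdec := divX_mul_X_add P
    have h1 : (divX P).eval B * B + P.coeff 0 = 0 := by
      rw [← hdec] at h0
      simpa using h0
    have hdvd : B ∣ P.coeff 0 := ⟨-(divX P).eval B, by linarith⟩
    have hc0 : P.coeff 0 = 0 := by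
      refine Int.eq_zero_of_abs_lt_dvd hdvd ?_
      have := hc 0
      rwa [Int.natCast_natAbs] at this
    have h2 : (divX P).eval B = 0 := by
      rw [hc0, add_zero] at h1
      exact (mul_eq_zero.mp h1).resolve_right hB.ne'
    have h3 : divX P = 0 := by
      refine ih _ ?_ (fun i => ?_) h2
      · rw [natDegree_divX_eq_natDegree_tsub_one]; omega
      · rw [coeff_divX]; exact hc _
    rw [← hdec, h3, hc0]
    simp

/-- **Final lemma.**  Value `0` at `B` and norm `< B` force `P = 0`. -/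
theorem Rel.eq_zero {B : ℤ} {P : ℂ[X]} {x : KV} (h : Rel B P x) (hv : x.v = 0)
    (hb : (x.b : ℤ) < B) : P = 0 := by
  obtain ⟨P₀, M, rfl, h2, h3, h4⟩ := h
  have hB : 0 < B := lt_of_le_of_lt (Int.natCast_nonneg _) hb
  have : P₀ = 0 := by
    refine eq_zero_aux hB _ P₀ le_rfl (fun i => ?_) (h2.trans hv)
    refine lt_of_le_of_lt ?_ hb
    exact_mod_cast ((h3 i).trans (coeff_le_eval_one M i)).trans h4
  rw [this, map_zero]

end Claimed.Agent.R246.KC
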