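import Claimed.Agent.R246.KC.Rel

/-!
# Row 246, F2 (route Q): kernel-check engine, part 2: truncated power series (helper543)

`RelS B m f l`: the coefficients `< m` of `f : PowerSeries ℂ[X]` are represented by the entries of `l : List KV`.
-/

set_option autoImplicit false

namespace Claimed.Agent.R246.KC

open Polynomial

/-- `ℂ[x][[V]]` (same as `F1.PP`) -/
abbrev PS : Type := PowerSeries (Polynomial ℂ)

def sumK : ℕ → (ℕ → KV) → KV
  | 0, _ => KV.zero
  | n + 1, f => (sumK n f).add (f n)

def get (l : List KV) (i : ℕ) : KV := l.getD i KV.zero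

def tab (m : ℕ) (f : ℕ → KV) : List KV := (List.range m).map f

theorem get_tab {m n : ℕ} (f : ℕ → KV) (h : n < m) : get (tab m f) n = f n := by
  simp [get, tab, List.getD_eq_getElem?_getD, h]

def sMul (m : ℕ) (a b : List KV) : List KV :=
  tab m fun n => sumK (n + 1) fun i => (get a i).mul (get b (n - i))
def sAdd (m : ℕ) (a b : List KV) : List KV := tab m fun n => (get a n).add (get b n)
def sSub (m : ℕ) (a b : List KV) : List KV := tab m fun n => (get a n).sub (get b n)
def sSmul (m : ℕ) (c : KV) (a : List KV) : List KV := tab m fun n => c.mul (get a n)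
def sShift (m k : ℕ) (a : List KV) : List KV :=
  tab m fun n => if n < k then KV.zero else get a (n - k)
def sZero (m : ℕ) : List KV := tab m fun _ => KV.zero
def sOne (m : ℕ) : List KV := tab m fun n => if n = 0 then KV.one else KV.zero
def sPow (m : ℕ) (a : List KV) : ℕ → List KV
  | 0 => sOne m
  | k + 1 => sMul m (sPow m a k) a
def sSum (m : ℕ) : ℕ → (ℕ → List KV) → List KV
  | 0, _ => sZero m
  | n + 1, f => sAdd m (sSum m n f) (f n)

theorem Rel.sumK {B : ℤ} {P : ℕ → ℂ[X]} {f : ℕ → KV} : ∀ (N : ℕ), (∀ i < N, Rel B (P i) (f i)) →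
    Rel B (∑ i ∈ Finset.range N, P i) (sumK N f)
  | 0, _ => by simpa [KC.sumK] using Rel.zero
  | N + 1, h => by
    rw [Finset.sum_range_succ]
    exact (Rel.sumK N fun i hi => h i (by omega)).add (h N (by omega))

def RelS (B : ℤ) (m : ℕ) (f : PS) (l : List KV) : Prop :=
  ∀ n < m, Rel B (PowerSeries.coeff n f) (get l n)

namespace RelS

variable {B : ℤ} {m : ℕ} {f g : PS} {a b : List KV}

theorem mono {m' : ℕ} (h : RelS B m f a) (hm : m' ≤ m) : RelS B m' f a :=
  fun n hn => h n (by omega)

theorem congr {f' : PS} (h : RelS B m f a) (e : f = f') : RelS B m f' a := e ▸ h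

theorem of_tab {F : ℕ → KV} (h : ∀ n < m, Rel B (PowerSeries.coeff n f) (F n)) :
    RelS B m f (tab m F) := fun n hn => by
  rw [get_tab _ hn]; exact h n hn

theorem mul (h : RelS B m f a) (h' : RelS B m g b) : RelS B m (f * g) (sMul m a b) := by
  refine of_tab fun n hn => ?_
  rw [PowerSeries.coeff_mul, Finset.Nat.sum_antidiagonal_eq_sum_range_succ
    (fun i j => PowerSeries.coeff i f * PowerSeries.coeff j g)]
  exact Rel.sumK _ fun i hi => (h i (by omega)).mul (h' (n - i) (by omega))

theorem add (h : RelS B m f a) (h' : RelS B m g b) : RelS B m (f + g) (sAdd m a b) := by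
  refine of_tab fun n hn => ?_
  rw [map_add]
  exact (h n hn).add (h' n hn)

theorem sub (h : RelS B m f a) (h' : RelS B m g b) : RelS B m (f - g) (sSub m a b) := by
  refine of_tab fun n hn => ?_
  rw [map_sub]
  exact (h n hn).sub (h' n hn)

theorem smul {P : ℂ[X]} {c : KV} (hc : Rel B P c) (h : RelS B m f a) :
    RelS B m (PowerSeries.C P * f) (sSmul m c a) := by
  refine of_tab fun n hn => ?_
  rw [PowerSeries.coeff_C_mul]
  exact hc.mul (h n hn)

theorem zero : RelS B m 0 (sZero m) := of_tab fun n _ => by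
  rw [map_zero]; exact Rel.zero

theorem one : RelS B m 1 (sOne m) := of_tab fun n _ => by
  rw [PowerSeries.coeff_one]
  split_ifs
  · exact Rel.one
  · exact Rel.zero

theorem pow (h : RelS B m f a) : ∀ k : ℕ, RelS B m (f ^ k) (sPow m a k)
  | 0 => by simpa [sPow] using one
  | k + 1 => by
    rw [pow_succ]
    exact (pow h k).mul h

/-- multiplication by `V^k`; only the first `m - k` coefficients of `f` are needed -/
theorem shift {k : ℕ} (h : RelS B (m - k) f a) :
    RelS B m (PowerSeries.X ^ k * f) (sShift m k a) := by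
  refine of_tab fun n hn => ?_
  rw [PowerSeries.coeff_X_pow_mul']
  split_ifs with h1 h2 h2
  · omega
  · exact h _ (by omega)
  · exact Rel.zero
  · omega

theorem sum {F : ℕ → PS} {L : ℕ → List KV} : ∀ (N : ℕ), (∀ i < N, RelS B m (F i) (L i)) →
    RelS B m (∑ i ∈ Finset.range N, F i) (sSum m N L)
  | 0, _ => by simpa [sSum] using zero
  | N + 1, h => by
    rw [Finset.sum_range_succ]
    exact (sum N fun i hi => h i (by omega)).add (h N (by omega))

theorem mk {F : ℕ → ℂ[X]} {L : ℕ → KV} (h : ∀ n < m, Rel B (F n) (L n)) :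
    RelS B m (PowerSeries.mk F) (tab m L) := of_tab fun n hn => by
  rw [PowerSeries.coeff_mk]; exact h n hn

end RelS

/-- all entries `< m` have value `0` and bound `< 2^K` -/
def isZeroS (K m : ℕ) (l : List KV) : Bool :=
  (List.range m).all fun n => decide ((get l n).v = 0) && decide ((get l n).b < 2 ^ K)

theorem RelS.dvd_of_isZeroS {K m : ℕ} {f : PS} {l : List KV} (h : RelS (2 ^ K) m f l)
    (hz : isZeroS K m l = true) : PowerSeries.X ^ m ∣ f := by
  rw [PowerSeries.X_pow_dvd_iff]
  intro n hn
  rw [isZeroS, List.all_eq_true] at hz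
  have := hz n (List.mem_range.mpr hn)
  rw [Bool.and_eq_true, decide_eq_true_eq, decide_eq_true_eq] at this
  exact (h n hn).eq_zero this.1 (by exact_mod_cast this.2)

end Claimed.Agent.R246.KC
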